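import Mathlib.Analysis.InnerProductSpace.PiL2

/-!
Borsuk's partition problem: definitions.
-/

namespace Vale.Agent.P052

/-- `IsSmallerCover Y k`: the set `Y` is a union of `k` subsets, each of diameter strictly
smaller than the diameter of `Y`. -/
def IsSmallerCover {d : ℕ} (Y : Set (EuclideanSpace ℝ (Fin d))) (k : ℕ) : Prop :=
  ∃ P : Fin k → Set (EuclideanSpace ℝ (Fin d)),
    (⋃ i, P i) = Y ∧ ∀ i, Metric.diam (P i) < Metric.diam Y

/-- `b(Y)`: the least number `k` such that `Y` is a union of `k` subsets, each of diameter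
strictly smaller than the diameter of `Y`. -/
noncomputable def borsukNumber {d : ℕ} (Y : Set (EuclideanSpace ℝ (Fin d))) : ℕ :=
  sInf {k : ℕ | IsSmallerCover Y k}

/-- Borsuk's conjecture in dimension `d`: `b(Y) ≤ d + 1` for every bounded set `Y` of positive
diameter in `d`-dimensional Euclidean space. -/
def BorsukConjecture (d : ℕ) : Prop :=
  ∀ Y : Set (EuclideanSpace ℝ (Fin d)), Bornology.IsBounded Y → 0 < Metric.diam Y →
    borsukNumber Y ≤ d + 1

end Vale.Agent.P052
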